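import Vale.Agent.P011.Pow.Av
import Vale.Agent.P011.Pow.CentT
import Vale.Agent.P011.H699.Odd.Frame

/-!
**Number fields: the absolute values of `D` at the places of `Tdiv`**, in the letters of the frame
of the commutators of the unitary elements close to one.
-/

open NumberField IsDedekindDomain Module

set_option linter.unusedSectionVars false

namespace Vale.Agent.P011.H770.Odd

open Vale.Agent.P011.Arith Vale.Agent.P011.Even Vale.Agent.P011.Pow Vale.Agent.P011.One
open Vale.Agent.P011.H699.Odd (Fa)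

section place

variable {K : Type} [Field K] [NumberField K]

/-- Algebraic integers have absolute value at most one. -/
theorem abv_int_le (A : AbsoluteValue K ℝ) (hA : ∀ x y, A (x + y) ≤ max (A x) (A y))
    (x : 𝓞 K) : A (x : K) ≤ 1 := by
  have hsum : ∀ (s : Finset ℕ) (g : ℕ → K) (C : ℝ), 0 ≤ C → (∀ i ∈ s, A (g i) ≤ C) →
      A (∑ i ∈ s, g i) ≤ C := by
    intro s g C hC
    classical
    induction s using Finset.induction_on with
    | empty => intro _; rw [Finset.sum_empty, map_zero]; exact hC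
    | insert a s ha ih =>
      intro hg
      rw [Finset.sum_insert ha]
      exact (hA _ _).trans (max_le (hg a (Finset.mem_insert_self a s))
        (ih fun i hi => hg i (Finset.mem_insert_of_mem hi)))
  have hnat : ∀ m : ℕ, A (m : K) ≤ 1 := by
    intro m
    induction m with
    | zero => rw [Nat.cast_zero, map_zero]; exact zero_le_one
    | succ m ih =>
      rw [Nat.cast_succ]
      exact (hA _ _).trans (max_le ih (by rw [map_one]))
  have hint : ∀ m : ℤ, A (m : K) ≤ 1 := by
    intro m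
    rcases Int.natAbs_eq m with h | h
    · rw [h, Int.cast_natCast]; exact hnat _
    · rw [h, Int.cast_neg, AbsoluteValue.map_neg, Int.cast_natCast]; exact hnat _
  by_contra hcon
  rw [not_le] at hcon
  have h1 : IsIntegral ℤ (x : K) := RingOfIntegers.isIntegral_coe x
  set P := minpoly ℤ (x : K) with hP
  have hmon : P.Monic := minpoly.monic h1
  have h2 : Polynomial.aeval (x : K) P = 0 := minpoly.aeval ℤ (x : K)
  have hd : 0 < P.natDegree := minpoly.natDegree_pos h1
  have h3 : (x : K) ^ P.natDegree =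
      -∑ i ∈ Finset.range P.natDegree, (P.coeff i : K) * (x : K) ^ i := by
    rw [Polynomial.aeval_eq_sum_range, Finset.sum_range_succ] at h2
    have h4 : P.coeff P.natDegree = 1 := hmon
    rw [h4, one_smul] at h2
    rw [eq_neg_iff_add_eq_zero, add_comm]
    convert h2 using 2
    refine Finset.sum_congr rfl fun i _ => ?_
    rw [zsmul_eq_mul]
  have h5 : A (x : K) ^ P.natDegree ≤ A (x : K) ^ (P.natDegree - 1) := by
    rw [← map_pow, h3, AbsoluteValue.map_neg]
    refine hsum _ _ _ (pow_nonneg (A.nonneg _) _) fun i hi => ?_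
    rw [Finset.mem_range] at hi
    rw [map_mul, map_pow]
    exact (mul_le_of_le_one_left (pow_nonneg (A.nonneg _) _) (hint _)).trans
      (pow_le_pow_right₀ hcon.le (by omega))
  have h6 : A (x : K) ^ (P.natDegree - 1) < A (x : K) ^ P.natDegree :=
    pow_lt_pow_right₀ hcon (by omega)
  exact absurd h5 (not_le.mpr h6)

/-- **The place of an ultrametric absolute value.** -/
theorem exists_place (A : AbsoluteValue K ℝ) (hA : ∀ x y, A (x + y) ≤ max (A x) (A y))
    {z : 𝓞 K} (hz0 : z ≠ 0) (hz : A (algebraMap (𝓞 K) K z) < 1) :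
    ∃ V : HeightOneSpectrum (𝓞 K), (∀ a : K, V.valuation K a ≤ 1 → A a ≤ 1) ∧
      (∀ a : K, V.valuation K a < 1 → A a < 1) ∧
      ∀ x : 𝓞 K, x ∈ V.asIdeal ↔ A (algebraMap (𝓞 K) K x) < 1 := by
  have hint : ∀ x : 𝓞 K, A (algebraMap (𝓞 K) K x) ≤ 1 := abv_int_le A hA
  let P : Ideal (𝓞 K) :=
    { carrier := {x | A (algebraMap (𝓞 K) K x) < 1}
      add_mem' := fun {x y} hx hy => by
        change A (algebraMap (𝓞 K) K (x + y)) < 1
        rw [map_add]
        exact (hA _ _).trans_lt (max_lt hx hy)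
      zero_mem' := by
        change A (algebraMap (𝓞 K) K 0) < 1
        rw [map_zero, map_zero]
        exact one_pos
      smul_mem' := fun c x hx => by
        change A (algebraMap (𝓞 K) K (c * x)) < 1
        rw [map_mul, map_mul]
        exact (mul_le_of_le_one_left (A.nonneg _) (hint c)).trans_lt hx }
  have hP : ∀ x : 𝓞 K, x ∈ P ↔ A (algebraMap (𝓞 K) K x) < 1 := fun _ => Iff.rfl
  have hprime : P.IsPrime := by
    refine ⟨?_, fun {x y} hxy => ?_⟩
    · rw [Ideal.ne_top_iff_one, hP, map_one, map_one]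
      exact lt_irrefl _
    · rw [hP, map_mul, map_mul] at hxy
      rw [hP, hP]
      by_contra hcon
      rw [not_or, not_lt, not_lt] at hcon
      exact absurd hxy (not_lt.mpr (one_le_mul_of_one_le_of_one_le hcon.1 hcon.2))
  have hbot : P ≠ ⊥ := fun h0 => hz0 (by
    have h1 : z ∈ P := hz
    rwa [h0] at h1)
  let w : HeightOneSpectrum (𝓞 K) := ⟨P, hprime, hbot⟩
  have hd1 : ∀ x : w.asIdeal.primeCompl, A (algebraMap (𝓞 K) K (x : 𝓞 K)) = 1 := by
    intro x
    have h1 : ¬ (x : 𝓞 K) ∈ P := x.2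
    rw [hP, not_lt] at h1
    exact le_antisymm (hint _) h1
  have hy : ∀ (y : K) (n : 𝓞 K) (c : w.asIdeal.primeCompl),
      y * algebraMap (𝓞 K) K c = algebraMap (𝓞 K) K n → A y = A (algebraMap (𝓞 K) K n) := by
    intro y n c hc
    have h1 := congrArg A hc
    rw [map_mul, hd1 c, mul_one] at h1
    exact h1
  refine ⟨w, fun y hy1 => ?_, fun y hy1 => ?_, hP⟩
  · obtain ⟨n, c, hc⟩ := w.exists_primeCompl_mul_eq_of_integer y hy1
    rw [hy y n c hc]
    exact hint n
  · obtain ⟨n, c, hc⟩ := w.exists_primeCompl_mul_eq_of_integer y hy1.le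
    rw [hy y n c hc]
    have h2 : n ∈ w.asIdeal := by
      have h3 : w.valuation K (algebraMap (𝓞 K) K n) < 1 := by
        rw [← hc, map_mul]
        exact (mul_le_of_le_one_right' (w.valuation_le_one _)).trans_lt hy1
      exact (w.valuation_lt_one_iff_mem (K := K) n).mp h3
    exact h2

end place

section main

variable {k K D : Type} [Field k] [NumberField k] [Field K] [NumberField K] [StarRing K]
  [DivisionRing D] [StarRing D] [Algebra k K] [Algebra k D] [Algebra K D] [IsScalarTower k K D]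
  {d : kˣ} {s : K} {n : ℕ}

/-- The absolute value composed with the involution. -/
noncomputable def stA (A : AbsoluteValue D ℝ) : AbsoluteValue D ℝ where
  toFun x := A (star x)
  map_mul' x y := by rw [star_mul, map_mul, mul_comm]
  nonneg' x := A.nonneg _
  eq_zero' x := by rw [AbsoluteValue.eq_zero, star_eq_zero]
  add_le' x y := by rw [star_add]; exact A.add_le _ _

theorem stA_apply (A : AbsoluteValue D ℝ) (x : D) : stA A x = A (star x) := rfl

/-- The places of `K` above the places of `Tdiv`. -/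
def TP (k K D : Type) [Field k] [NumberField k] [Field K] [NumberField K] [DivisionRing D]
    [Algebra k K] [Algebra K D] : Set (HeightOneSpectrum (𝓞 K)) :=
  {V | ∃ v : HeightOneSpectrum (𝓞 k), (Sum.inl v : Pl k) ∈ Tdiv k K D ∧ Ab V v}

theorem tp_finite (hS : Setting k K D d s) (hn : 2 ≤ n) (hdeg : finrank K D = n ^ 2) :
    (TP k K D).Finite := by
  have := hS.fin
  have := hS.cen
  have hTf : (Tdiv k K D).Finite := tdiv_finite hn hdeg
  have h1 : {v : HeightOneSpectrum (𝓞 k) | (Sum.inl v : Pl k) ∈ Tdiv k K D}.Finite :=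
    hTf.preimage (Sum.inl_injective.injOn)
  have h2 : TP k K D ⊆ ⋃ v ∈ {v : HeightOneSpectrum (𝓞 k) | (Sum.inl v : Pl k) ∈ Tdiv k K D},
      {w : HeightOneSpectrum (𝓞 K) | Ab w v} := by
    rintro V ⟨v, hv, hV⟩
    exact Set.mem_biUnion hv hV
  exact (h1.biUnion fun v _ => above_finite v).subset h2

/-- The absolute value of `D` at a finite place of `K` where `D` stays a division algebra. -/
theorem exists_av' (hS : Setting k K D d s) {w : HeightOneSpectrum (𝓞 K)}
    (hdiv : DivF (w.adicCompletion K) K D) {v : HeightOneSpectrum (𝓞 k)} (hwv : Ab w v) {M : ℕ}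
    (B : Basis (Fin M) k D) :
    ∃ A : AbsoluteValue D ℝ, (∀ x y, A (x + y) ≤ max (A x) (A y)) ∧
      (∀ c : K, A (algebraMap K D c) = plAbv (.inl w) c) ∧
      (∀ Λ : D →ₗ[K] K, ∃ C : ℝ, ∀ x, A (algebraMap K D (Λ x)) ≤ C * A x) ∧
      (∀ ε : ℝ, 0 < ε → ∃ δ : ℝ, 0 < δ ∧ ∀ x : D, A x < δ → A (star x) < δ →
        nm B (.inl v) x < ε) ∧
      (∀ ε : ℝ, 0 < ε → ∃ δ : ℝ, 0 < δ ∧ ∀ x : D, nm B (.inl v) x < δ → A x < ε) := by
  have := hS.fin
  have := hS.cen
  let _ := nnf w
  have := isUltra w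
  have h : DivF (w.adicCompletion K) K D := hdiv
  refine ⟨AvF h, cvF_add h, fun c => ?_, fun Λ => ?_, fun ε hε => ?_, fun ε hε => ?_⟩
  · exact (cvF_alg c).trans (norm_algebraMap_eq w c)
  · obtain ⟨C, -, hC⟩ := cvF_linear (F := w.adicCompletion K) h Λ
    refine ⟨C, fun x => ?_⟩
    have h1 : (AvF h) (algebraMap K D (Λ x)) = ‖algebraMap K (w.adicCompletion K) (Λ x)‖ :=
      cvF_alg (Λ x)
    rw [h1]
    exact hC x
  · exact dn_small hS h v (above_down hwv) B hε
  · exact cv_small hS h v (above_up hwv) B hε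

/-- The absolute value of a place is smaller than one on the prime. -/
theorem plAbv_lt_one {F : Type} [Field F] [NumberField F] (w : HeightOneSpectrum (𝓞 F)) (c : F) :
    plAbv (.inl w) c < 1 ↔ w.valuation F c < 1 := by
  let _ := nnf w
  rw [← norm_algebraMap_eq w c, norm_lt_one_iff, valued_alg]

/-- **The absolute values of `D` at the places of `Tdiv`.** -/
theorem exists_nu (hS : Setting k K D d s) (hn : 2 ≤ n) (hdeg : finrank K D = n ^ 2) {M : ℕ}
    (B : Basis (Fin M) k D) :
    ∃ (ι : Type) (_ : Finite ι) (ν : ι → AbsoluteValue D ℝ), Fa ν ∧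
      (∀ (Λ : D →ₗ[K] K) (i : ι), ∃ C : ℝ, ∀ x, ν i (algebraMap K D (Λ x)) ≤ C * ν i x) ∧
      (∀ ε : ℝ, 0 < ε → ∃ δ : ℝ, 0 < δ ∧ ∀ x : D, (∀ p ∈ Tdiv k K D, nm B p x < δ) →
        ∀ i, ν i x < ε) ∧
      (∀ ε : ℝ, 0 < ε → ∃ δ : ℝ, 0 < δ ∧ ∀ x : D, (∀ i, ν i x < δ) →
        ∀ p ∈ Tdiv k K D, nm B p x < ε) ∧
      (∀ i, ∃ V ∈ TP k K D, (∀ a : K, V.valuation K a ≤ 1 → ν i (algebraMap K D a) ≤ 1) ∧
        ∀ a : K, V.valuation K a < 1 → ν i (algebraMap K D a) < 1) ∧
      ∀ V ∈ TP k K D, ∃ i, ∀ a : K, ν i (algebraMap K D a) = plAbv (.inl V) a := by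
  classical
  have := hS.fin
  have := hS.cen
  have : StarModule K D := ⟨hS.star_smul⟩
  have hTP : (TP k K D).Finite := tp_finite hS hn hdeg
  have hex : ∀ V : {V : HeightOneSpectrum (𝓞 K) // V ∈ TP k K D}, ∃ v : HeightOneSpectrum (𝓞 k),
      (Sum.inl v : Pl k) ∈ Tdiv k K D ∧ Ab V.1 v := fun V => V.2
  choose vv hvv hVv using hex
  choose A hu hc hlin hdn hcv using fun V : {V : HeightOneSpectrum (𝓞 K) // V ∈ TP k K D} =>
    exists_av' hS (div_of_tdiv hS (hvv V) (hVv V)) (hVv V) B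
  have _ : Finite {V : HeightOneSpectrum (𝓞 K) // V ∈ TP k K D} := hTP.to_subtype
  let ν : {V : HeightOneSpectrum (𝓞 K) // V ∈ TP k K D} × Bool → AbsoluteValue D ℝ :=
    fun i => if i.2 then stA (A i.1) else A i.1
  have hνt : ∀ V (x : D), ν (V, true) x = A V (star x) := fun V x => rfl
  have hνf : ∀ V (x : D), ν (V, false) x = A V x := fun V x => rfl
  have hult : ∀ i x y, ν i (x + y) ≤ max (ν i x) (ν i y) := by
    rintro ⟨V, b⟩ x y
    cases b
    · exact hu V x y
    · rw [hνt, hνt, hνt, star_add]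
      exact hu V _ _
  have hstar : ∀ i, ∃ j, ∀ x : D, ν j x = ν i (star x) := by
    rintro ⟨V, b⟩
    cases b
    · exact ⟨(V, true), fun x => rfl⟩
    · exact ⟨(V, false), fun x => by rw [hνt, hνf, star_star]⟩
  have hmin : ∀ φ : {V : HeightOneSpectrum (𝓞 K) // V ∈ TP k K D} → ℝ, (∀ V, 0 < φ V) →
      ∃ ε : ℝ, 0 < ε ∧ ∀ V, ε ≤ φ V := fun φ hφ => by
    rcases isEmpty_or_nonempty {V : HeightOneSpectrum (𝓞 K) // V ∈ TP k K D} with he | hne
    · exact ⟨1, one_pos, fun V => (he.false V).elim⟩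
    · obtain ⟨V, hV⟩ := Finite.exists_min φ
      exact ⟨φ V, hφ V, hV⟩
  refine ⟨{V : HeightOneSpectrum (𝓞 K) // V ∈ TP k K D} × Bool, inferInstance, ν,
    ⟨hult, hstar⟩, ?_, ?_, ?_, ?_, ?_⟩
  · rintro Λ ⟨V, b⟩
    cases b
    · exact hlin V Λ
    · let Λ' : D →ₗ[K] K :=
        { toFun := fun x => star (Λ (star x))
          map_add' := fun x y => by rw [star_add, map_add, star_add]
          map_smul' := fun c x => by
            rw [hS.star_smul, map_smul, smul_eq_mul, star_mul, star_star, RingHom.id_apply,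
              smul_eq_mul, mul_comm] }
      obtain ⟨C, hC⟩ := hlin V Λ'
      refine ⟨C, fun x => ?_⟩
      rw [hνt, hνt, hS.star_alg]
      have h2 := hC (star x)
      have h3 : Λ' (star x) = star (Λ x) := by
        change star (Λ (star (star x))) = _
        rw [star_star]
      rwa [h3] at h2
  · intro ε hε
    choose δ hδ hb using fun V => hcv V ε hε
    let L : D →ₗ[k] D :=
      { toFun := star
        map_add' := star_add
        map_smul' := fun c x => by
          rw [RingHom.id_apply, Algebra.smul_def, Algebra.smul_def, star_mul,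
            IsScalarTower.algebraMap_apply k K D, hS.star_alg, (hS.fix _).mpr ⟨c, rfl⟩]
          exact (Algebra.commutes _ _).symm }
    choose C hC hCL using fun p : Pl k => nm_linear B p L
    obtain ⟨δ', hδ', hle⟩ := hmin (fun V => min (δ V) (δ V / C (.inl (vv V)))) fun V =>
      lt_min (hδ V) (div_pos (hδ V) (hC _))
    refine ⟨δ', hδ', fun x hx => ?_⟩
    rintro ⟨V, b⟩
    have h1 : nm B (.inl (vv V)) x < δ' := hx _ (hvv V)
    cases b
    · exact hb V x (h1.trans_le ((hle V).trans (min_le_left _ _)))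
    · refine hb V _ ((hCL (.inl (vv V)) x).trans_lt ?_)
      have h2 : nm B (.inl (vv V)) x < δ V / C (.inl (vv V)) :=
        h1.trans_le ((hle V).trans (min_le_right _ _))
      rw [lt_div_iff₀ (hC _)] at h2
      rwa [mul_comm]
  · intro ε hε
    choose δ hδ hb using fun V => hdn V ε hε
    obtain ⟨δ', hδ', hle⟩ := hmin δ hδ
    refine ⟨δ', hδ', fun x hx p hp => ?_⟩
    obtain ⟨v, rfl, -⟩ := id hp
    obtain ⟨V, hV⟩ := exists_above (E := K) v
    have h1 : v = vv ⟨V, v, hp, hV⟩ := below_unique hV (hVv ⟨V, v, hp, hV⟩)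
    have h2 := hb ⟨V, v, hp, hV⟩ x ((hx (⟨V, v, hp, hV⟩, false)).trans_le (hle _))
      ((hx (⟨V, v, hp, hV⟩, true)).trans_le (hle _))
    rwa [← h1] at h2
  · have hk : ∀ i (c : k), ν i (algebraMap K D (algebraMap k K c)) =
        plAbv (.inl i.1.1) (algebraMap k K c) := by
      rintro ⟨V, b⟩ c
      cases b
      · exact hc V _
      · rw [hνt, hS.star_alg, (hS.fix _).mpr ⟨c, rfl⟩]
        exact hc V _
    intro i
    have hinj : Function.Injective (algebraMap K D) := (algebraMap K D).injective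
    let Ai : AbsoluteValue K ℝ := (ν i).comp hinj
    have hAi : ∀ a, Ai a = ν i (algebraMap K D a) := fun a => rfl
    obtain ⟨z, hz, hz0⟩ := Submodule.exists_mem_ne_zero_of_ne_bot (vv i.1).ne_bot
    have hlt : ∀ x : 𝓞 k, Ai (algebraMap (𝓞 K) K (algebraMap (𝓞 k) (𝓞 K) x)) < 1 ↔
        x ∈ (vv i.1).asIdeal := by
      intro x
      have h1 : algebraMap (𝓞 K) K (algebraMap (𝓞 k) (𝓞 K) x) =
          algebraMap k K (algebraMap (𝓞 k) k x) := rfl
      rw [hAi, h1, hk, plAbv_lt_one, val_lt_one_iff (hVv i.1)]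
      exact (vv i.1).valuation_lt_one_iff_mem (K := k) x
    obtain ⟨V, h1, h2, h3⟩ := exists_place Ai (fun x y => by
      rw [hAi, hAi, hAi, map_add]
      exact hult i _ _) (z := algebraMap (𝓞 k) (𝓞 K) z)
      ((map_ne_zero_iff _ (FaithfulSMul.algebraMap_injective (𝓞 k) (𝓞 K))).mpr hz0)
      ((hlt z).mpr hz)
    refine ⟨V, ⟨vv i.1, hvv i.1, ?_⟩, h1, h2⟩
    change V.asIdeal.comap (algebraMap (𝓞 k) (𝓞 K)) = (vv i.1).asIdeal
    ext x
    rw [Ideal.mem_comap, h3, hlt]
  · intro V hV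
    exact ⟨(⟨V, hV⟩, false), fun a => hc ⟨V, hV⟩ a⟩

end main

end Vale.Agent.P011.H770.Odd
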