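import Vale.Agent.P011.Pow.Av
import Vale.Agent.P011.Pow.Kappa

/-!
**Number fields: the reduced norm is continuous at one**, in terms of the valuations of the centre.
-/

open NumberField IsDedekindDomain Module

set_option linter.unusedSectionVars false

namespace Vale.Agent.P011.H770.Odd

open Vale.Agent.P011.Arith Vale.Agent.P011.Even Vale.Agent.P011.Pow Vale.Agent.P011.One

variable {k K D : Type} [Field k] [NumberField k] [Field K] [NumberField K]
  [DivisionRing D] [Algebra k K] [Algebra k D] [Algebra K D] [IsScalarTower k K D]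
  {Ω : Type} [Field Ω] [Algebra K Ω] {n : ℕ}

/-- Elements of `K` with small coordinates over `k` at `v` are small at the places above `v`. -/
theorem exists_radius_up {v : HeightOneSpectrum (𝓞 k)} {V : HeightOneSpectrum (𝓞 K)}
    (hV : Ab V v) {γ : Z0} (hγ : γ ≠ 0) : ∃ δ : ℝ, 0 < δ ∧ ∀ t : k, plAbv (.inl v) t < δ →
      V.valuation K (algebraMap k K t) < γ := by
  obtain ⟨e, he, hv⟩ := val_above hV
  obtain ⟨δ, hδ, h2⟩ := exists_delta v (γ := min γ 1) (by
    rcases min_choice γ 1 with h | h <;> rw [h]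
    · exact hγ
    · exact one_ne_zero)
  refine ⟨δ, hδ, fun c hc => ?_⟩
  have h3 := lt_min_iff.mp (h2 c hc)
  rw [hv]
  exact (pow_le_of_le_one zero_le h3.2.le he).trans_lt h3.1

/-- **The reduced norm of an element close to one is close to one.** -/
theorem nrd_val_near (f : D →ₐ[K] Matrix (Fin n) (Fin n) Ω) {N : D → K}
    (hN : ∀ x, (f x).det = algebraMap K Ω (N x)) {M : ℕ} (B : Basis (Fin M) k D)
    {v : HeightOneSpectrum (𝓞 k)} {V : HeightOneSpectrum (𝓞 K)} (hV : Ab V v) {γ : Z0}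
    (hγ : γ ≠ 0) : ∃ δ : ℝ, 0 < δ ∧ ∀ x : D, nm B (.inl v) (x - 1) < δ →
      V.valuation K (N x - 1) < γ := by
  classical
  let _ : Algebra k Ω := ((algebraMap K Ω).comp (algebraMap k K)).toAlgebra
  have _ : IsScalarTower k K Ω := IsScalarTower.of_algebraMap_eq fun _ => rfl
  have _ : FiniteDimensional k K := Module.Finite.of_restrictScalars_finite ℚ k K
  obtain ⟨ρ, hρ'⟩ := (Algebra.linearMap K Ω).exists_leftInverse_of_injective
    (LinearMap.ker_eq_bot.mpr (algebraMap K Ω).injective)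
  have hρ : ∀ c, ρ (algebraMap K Ω c) = c := fun c => LinearMap.congr_fun hρ' c
  let gl : D →ₗ[k] Matrix (Fin n) (Fin n) Ω :=
    { toFun := f
      map_add' := map_add f
      map_smul' := fun c x => by
        rw [RingHom.id_apply, ← algebraMap_smul K c x, map_smul, algebraMap_smul] }
  let b := Module.finBasis k K
  let Λ : Fin (finrank k K) → (Ω →ₗ[k] k) := fun j => (b.coord j).comp (ρ.restrictScalars k)
  have hΛ : ∀ j c, Λ j (algebraMap K Ω c) = b.coord j c := by
    intro j c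
    change b.coord j (ρ (algebraMap K Ω c)) = _
    rw [hρ]
  have hN1 : N 1 = 1 := by
    apply (algebraMap K Ω).injective
    rw [← hN, map_one, Matrix.det_one, map_one]
  -- the radii
  have hrad : ∀ j, ∃ δ : ℝ, 0 < δ ∧ ∀ t : k, plAbv (.inl v) t < δ →
      V.valuation K (algebraMap k K t * b j) < γ := by
    intro j
    have hbj : V.valuation K (b j) ≠ 0 := (Valuation.ne_zero_iff _).mpr (b.ne_zero j)
    obtain ⟨δ, hδ, h⟩ := exists_radius_up hV (div_ne_zero hγ hbj)
    refine ⟨δ, hδ, fun t ht => ?_⟩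
    have h1 := h t ht
    rw [lt_div_iff₀ (zero_lt_iff.mpr hbj)] at h1
    rwa [map_mul]
  choose r hr hrb using hrad
  choose η hη H using fun j => det_near B gl (Λ j) (.inl v : Pl k) (1 : D) (hr j)
  obtain ⟨δ, hδ, hle⟩ : ∃ δ : ℝ, 0 < δ ∧ ∀ j, δ ≤ η j := by
    rcases isEmpty_or_nonempty (Fin (finrank k K)) with he | hne
    · exact ⟨1, one_pos, fun j => (he.false j).elim⟩
    · obtain ⟨j, hj⟩ := Finite.exists_min η
      exact ⟨η j, hη j, hj⟩
  refine ⟨δ, hδ, fun x hx => ?_⟩
  have h1 : N x - 1 = ∑ j, algebraMap k K (b.coord j (N x - 1)) * b j := by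
    conv_lhs => rw [← b.sum_repr (N x - 1)]
    exact Finset.sum_congr rfl fun j _ => by rw [Algebra.smul_def]; rfl
  rw [h1]
  refine Valuation.map_sum_lt _ hγ fun j _ => hrb j _ ?_
  have h2 := H j x (hx.trans_le (hle j))
  have e1 : (gl x).det = algebraMap K Ω (N x) := hN x
  have e2 : (gl 1).det = algebraMap K Ω 1 := by
    change (f 1).det = _
    rw [map_one, Matrix.det_one, map_one]
  rw [e1, e2, hΛ, hΛ, ← map_sub] at h2
  exact h2

/-- **The reduced norm of an element close to one is close to one**, at finitely many places. -/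
theorem nrd_val_near_all (f : D →ₐ[K] Matrix (Fin n) (Fin n) Ω) {N : D → K}
    (hN : ∀ x, (f x).det = algebraMap K Ω (N x)) {M : ℕ} (B : Basis (Fin M) k D)
    {T : Set (Pl k)} (hT : T.Finite) {c : K} (hc : c ≠ 0) :
    ∃ δ : ℝ, 0 < δ ∧ ∀ x : D, (∀ p ∈ T, nm B p (x - 1) < δ) → ∀ v : HeightOneSpectrum (𝓞 k),
      (Sum.inl v : Pl k) ∈ T → ∀ V : HeightOneSpectrum (𝓞 K), Ab V v →
        V.valuation K (N x - 1) ≤ V.valuation K c := by
  classical
  have key : ∀ V : HeightOneSpectrum (𝓞 K), ∃ δ : ℝ, 0 < δ ∧ ∀ v : HeightOneSpectrum (𝓞 k),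
      Ab V v → ∀ x : D, nm B (.inl v) (x - 1) < δ → V.valuation K (N x - 1) ≤ V.valuation K c := by
    intro V
    obtain ⟨v, hv⟩ := exists_below (F := k) V
    obtain ⟨δ, hδ, h⟩ := nrd_val_near f hN B hv (γ := V.valuation K c)
      ((Valuation.ne_zero_iff _).mpr hc)
    refine ⟨δ, hδ, fun v' hv' x hx => ?_⟩
    have h1 : v' = v := below_unique hv' hv
    rw [h1] at hx
    exact (h x hx).le
  choose δ hδ h using key
  have hfin : {V : HeightOneSpectrum (𝓞 K) | ∃ v, (Sum.inl v : Pl k) ∈ T ∧ Ab V v}.Finite := by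
    have h1 : {v : HeightOneSpectrum (𝓞 k) | (Sum.inl v : Pl k) ∈ T}.Finite :=
      hT.preimage (Sum.inl_injective.injOn)
    refine (h1.biUnion fun v _ => above_finite (E := K) v).subset ?_
    rintro V ⟨v, hv, hV⟩
    exact Set.mem_biUnion hv hV
  obtain ⟨δ₀, h0, h1⟩ : ∃ δ₀ : ℝ, 0 < δ₀ ∧ ∀ V : HeightOneSpectrum (𝓞 K),
      (∃ v, (Sum.inl v : Pl k) ∈ T ∧ Ab V v) → δ₀ ≤ δ V := by
    rcases hfin.toFinset.eq_empty_or_nonempty with he | hne
    · refine ⟨1, one_pos, fun w hw => ?_⟩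
      have h2 : w ∈ hfin.toFinset := by rw [Set.Finite.mem_toFinset]; exact hw
      rw [he] at h2
      exact absurd h2 (Finset.notMem_empty w)
    · refine ⟨hfin.toFinset.inf' hne δ, ?_, fun w hw => ?_⟩
      · rw [Finset.lt_inf'_iff]
        exact fun w _ => hδ w
      · refine Finset.inf'_le _ ?_
        rw [Set.Finite.mem_toFinset]
        exact hw
  exact ⟨δ₀, h0, fun x hx v hv V hV =>
    h V v hV x ((hx _ hv).trans_le (h1 V ⟨v, hv, hV⟩))⟩

end Vale.Agent.P011.H770.Odd
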